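import Vale.Agent.P011UB.Iw
import Vale.Agent.P011UH.Cl
import Mathlib.Algebra.Polynomial.Laurent
import Mathlib.RingTheory.PowerSeries.Inverse
import Mathlib.RingTheory.Valuation.ValuationRing

/-!
A cocharacter has values in a Borel subgroup.
-/

set_option autoImplicit false
set_option linter.all false

namespace Vale.Agent.P011UV

open Matrix Vale.Agent.P183CH Vale.Agent.P183CH.RG Vale.Agent.P183CH.Chev Vale.Agent.P011U
  Vale.Agent.P011UB Vale.Agent.P011UH LaurentPolynomial

variable {K : Type} [Field K]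

theorem pol_zero [Infinite K] {f : Polynomial K} (h : ∀ t : Kˣ, f.eval t.1 = 0) : f = 0 :=
  f.eq_zero_of_infinite_isRoot (((Set.finite_singleton 0).infinite_compl).mono fun x hx =>
    h (Units.mk0 x hx))

/-- the evaluation of Laurent polynomials -/
noncomputable def ea {S : Type} [CommRing S] [Algebra K S] (x : Sˣ) : K[T;T⁻¹] →ₐ[K] S :=
  { LaurentPolynomial.eval₂ (algebraMap K S) x with commutes' := fun c => eval₂_C _ _ c }

theorem lau_zero [Infinite K] {q : K[T;T⁻¹]} (h : ∀ t : Kˣ, ea t q = 0) : q = 0 := by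
  induction q using induction_on_mul_T with
  | mul_T f n =>
    rw [pol_zero (f := f) fun t => ?_, map_zero, zero_mul]
    have := h t
    rw [map_mul] at this
    refine (eval₂_toLaurent _ t f).symm.trans ((mul_eq_zero.1 this).resolve_right ?_)
    exact ((isUnit_T _).map (ea t)).ne_zero

section

variable {n : ℕ} (g : GL (Fin n) K) (y : Fin n → ℤ) {S S' : Type} [CommRing S] [Algebra K S]
  [CommRing S'] [Algebra K S']

/-- the values of the cocharacter -/
def cm (x : Sˣ) : Matrix (Fin n) (Fin n) S :=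
  g.1.map (algebraMap K S) * diagonal (fun i => (x ^ y i).1) * (g⁻¹).1.map (algebraMap K S)

theorem cm_map (ρ : S →+* S') (h : ∀ c, ρ (algebraMap K S c) = algebraMap K S' c) (x : Sˣ) :
    (cm g y x).map ρ = cm g y (Units.map ρ.toMonoidHom x) := by
  have : ∀ M : Matrix (Fin n) (Fin n) K, (M.map (algebraMap K S)).map ρ = M.map (algebraMap K S') :=
    fun M => Matrix.ext fun _ _ => h _
  rw [cm, Matrix.map_mul, Matrix.map_mul, this, this, diagonal_map (map_zero ρ), cm]
  congr 3
  funext i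
  rw [← map_zpow]
  rfl

theorem cm_mul (x x' : Sˣ) : cm g y (x * x') = cm g y x * cm g y x' := by
  have : (g⁻¹).1.map (algebraMap K S) * g.1.map (algebraMap K S) = 1 := by
    rw [← Matrix.map_mul, Units.inv_mul, Matrix.map_one _ (map_zero _) (map_one _)]
  simp only [cm, mul_assoc]
  rw [← mul_assoc ((g⁻¹).1.map _), this, one_mul, ← mul_assoc (diagonal _) (diagonal _),
    diagonal_mul_diagonal]
  simp only [mul_zpow, Units.val_mul]

end

variable {D : Chev} {g : GL (Fin D.n) K} {y : Fin D.n → ℤ} {l : Kˣ → D.grp K}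
  (hl : ∀ t, (l t).1.1 * g.1 = g.1 * diagonal fun i => (t ^ y i).1)
include hl

theorem cm_eq (t : Kˣ) : cm g y t = (l t).1.1 := by
  show g.1 * _ * (g⁻¹).1 = _
  rw [← hl, Units.mul_inv_cancel_right]

theorem cm_mem [Infinite K] (hD : SC D) {F : Type} [Field F] [Algebra K F] (x : Fˣ) :
    ∃ Z : D.grp F, Z.1.1 = cm g y x := by
  have h1 : ∀ {S : Type} [CommRing S] [Algebra K S] (x : Sˣ),
      (cm g y (unitOfInvertible (T 1 : K[T;T⁻¹]))).map (ea (K := K) x) = cm g y x := fun x =>
    (cm_map g y (ea x).toRingHom (ea x).commutes _).trans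
      (congrArg _ (Units.ext ((eval₂_T _ x 1).trans (by rw [zpow_one]))))
  refine (zc_iff (K := K) hD).1 fun p hp => ?_
  rw [← h1, ev_map, lau_zero (q := ev K _ p) fun t => ?_, map_zero]
  rw [← ev_map, h1, cm_eq hl, hp]

theorem bor [Infinite K] (hD : SC D) (a : Kˣ) : ∃ z : D.grp K, z * l a * z⁻¹ ∈ (GG D K).Bo := by
  let O := PowerSeries K
  let F := FractionRing O
  let ι := algebraMap O F
  have hι : Function.Injective ι := IsFractionRing.injective O F
  let r : O →+* K := PowerSeries.constantCoeff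
  let ρ : O →+* O := PowerSeries.rescale a.1
  have h1 : Function.Injective (ι.comp ρ) := hι.comp (Function.LeftInverse.injective
    (g := PowerSeries.rescale a⁻¹.1) fun f => (PowerSeries.rescale_rescale _ _ _).trans (by
      rw [Units.mul_inv, PowerSeries.rescale_one]; rfl))
  let φ : F →+* F := IsFractionRing.lift h1
  have h2 : ∀ z, φ (ι z) = ι (ρ z) := IsFractionRing.lift_algebraMap h1
  have h3 : ∀ c, algebraMap K F c = ι (PowerSeries.C c) := fun c =>
    IsScalarTower.algebraMap_apply K O F c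
  have h4 : ∀ c, φ (algebraMap K F c) = algebraMap K F c := fun c => by
    rw [h3, h2]
    refine congrArg ι (PowerSeries.ext fun i => ?_)
    rw [PowerSeries.coeff_rescale, PowerSeries.coeff_C]
    split_ifs with e
    · rw [e, pow_zero, one_mul]
    · rw [mul_zero]
  have h5 : ∀ z, r (ρ z) = r z := fun z => by
    rw [← PowerSeries.coeff_zero_eq_constantCoeff_apply, PowerSeries.coeff_rescale, pow_zero,
      one_mul, PowerSeries.coeff_zero_eq_constantCoeff_apply]
  let x : Fˣ := Units.mk0 (ι PowerSeries.X) fun e =>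
    PowerSeries.X_ne_zero (hι (e.trans (map_zero ι).symm))
  obtain ⟨Z, hZ⟩ := cm_mem hl hD x
  have h6 : fm D φ Z = Z * fm D (algebraMap K F) (l a) := Subtype.ext (Units.ext (by
    rw [fm_val, val_mul, fm_val, hZ, ← cm_eq hl, cm_map g y φ h4, cm_map g y _ (fun _ => rfl),
      ← cm_mul]
    refine congrArg _ (Units.ext ((h2 _).trans ?_))
    rw [PowerSeries.rescale_X, map_mul, ← h3, mul_comm]
    rfl))
  let H : Subgroup (GL (Fin D.n) O) := (D.grp K).comap (gm r)
  obtain ⟨b, hb, Y, ⟨W, hW, e⟩, rfl⟩ := iwa (Γ := GG D F) GG_ok (R_ok D) (O := Set.range ι)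
    ⟨1, map_one ι⟩ ⟨-1, by rw [map_neg, map_one]⟩ (fun c => by
      by_cases h : c = 0
      · exact .inl ⟨0, h ▸ map_zero ι⟩
      · exact (ValuationRing.isInteger_or_isInteger O c).imp id fun e => ⟨h, e⟩)
    (L := (H.map (gm ι)).comap (D.grp F).subtype) (fun γ hγ _ ⟨c, hc⟩ => by
      have h := mem_Φ.1 hγ
      refine ⟨h.rh.dp.exU c, ?_, (Units.ext (hc ▸ map_ex ι _ c)).trans (GG_x h _).symm⟩
      exact (congrArg (· ∈ D.grp K) (Units.ext (map_ex r _ c))).mpr (h.rh.x K (r c))) Z
  refine ⟨⟨gm r W, hW⟩, mem_of_up GG_mat GG_ok ?_⟩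
  have h7 : Up D.R D.wt (b⁻¹ * fm D φ b).1.1 := (up_of_mem GG_mat GG_ok (inv_mem hb)).mul
    fun i j c => up_of_mem GG_mat GG_ok hb i j fun c' => c (by
      rw [fm_val, map_apply, show b.1.1 i j = 0 from c', map_zero])
  have h8 : (b⁻¹ * fm D φ b).1 = gm ι (W * gm PowerSeries.C (l a).1 * (gm ρ W)⁻¹) := by
    have e1 : (fm D φ Y).1 = gm ι (gm ρ W) := (congrArg (gm φ) e.symm).trans
      (Units.ext (Matrix.ext fun i j => h2 _))
    have e2 : (fm D (algebraMap K F) (l a)).1 = gm ι (gm PowerSeries.C (l a).1) :=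
      Units.ext (Matrix.ext fun i j => h3 _)
    rw [map_mul] at h6
    rw [map_mul, map_mul, map_inv, ← e1, ← e2, e, eq_mul_inv_of_mul_eq h6]
    show ((_ : D.grp F)).1 = (Y * _ * (fm D φ Y)⁻¹).1
    congr 1
    group
  have h9 : gm r (W * gm PowerSeries.C (l a).1 * (gm ρ W)⁻¹) = gm r W * (l a).1 * (gm r W)⁻¹ := by
    rw [map_mul, map_mul, map_inv, show gm r (gm ρ W) = gm r W from
      Units.ext (Matrix.ext fun i j => h5 _), show gm r (gm PowerSeries.C (l a).1) = (l a).1 from
      Units.ext (Matrix.ext fun i j => PowerSeries.constantCoeff_C _)]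
  rw [h8] at h7
  show Up D.R D.wt (gm r W * (l a).1 * (gm r W)⁻¹).1
  rw [← h9]
  generalize W * gm PowerSeries.C (l a).1 * (gm ρ W)⁻¹ = N at h7 ⊢
  exact fun i j c => h7 i j fun c' => c ((congrArg r (hι (c'.trans (map_zero ι).symm))).trans
    (map_zero r))

end Vale.Agent.P011UV
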