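import Vale.Agent.P011UV.Grp
import Vale.Agent.P011UV.Bor
import Vale.Agent.P011UP.Lev
import Mathlib.RingTheory.RootsOfUnity.AlgebraicallyClosed

/-!
Isotropic forms have a proper stable parabolic subgroup.
-/

set_option autoImplicit false
set_option linter.all false

namespace Vale.Agent.P011UV

open Matrix Vale.Agent.P183CH Vale.Agent.P183CH.RG Vale.Agent.P183CH.Chev Vale.Agent.P011U
  Vale.Agent.P011UB Vale.Agent.P011UH Vale.Agent.P011UP Vale.Agent.P011L

variable {K : Type} [Field K] {D : Chev}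

/-- diagonal elements lie in the torus -/
theorem mem_T_of_diag {b : D.grp K} {d : Fin D.n → K} (h : b.1.1 = diagonal d) :
    b ∈ (GG D K).T := by
  obtain ⟨u, hu, t, ht, rfl⟩ := GG_ok.mem_Bo.1
    (mem_of_up (g := b) GG_mat GG_ok ((congrArg (Up D.R D.wt) h).mpr (up_diag d)))
  obtain ⟨d', hd⟩ := GG_mat.diag_T (inv_mem ht)
  have h1 : u.1.1 = diagonal fun a => d a * d' a := by
    rw [← diagonal_mul_diagonal, ← h, ← hd]
    exact congrArg (fun g : D.grp K => g.1.1) (mul_inv_cancel_right u t).symm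
  have h2 : u = 1 := Subtype.ext (Units.ext (h1.trans (Eq.trans (congrArg diagonal
    (funext fun a => (diagonal_apply_eq _ a).symm.trans
      ((congrFun₂ h1 a a).symm.trans (Mat.diag_of (GG_mat.fl_U hu) a)))) diagonal_one)))
  rwa [h2, one_mul]

/-- every cocharacter is conjugate to a cocharacter of the torus -/
theorem cochar [IsSepClosed K] [Infinite K] (hD : SC D) {g : GL (Fin D.n) K} {y : Fin D.n → ℤ}
    {l : Kˣ → D.grp K} (hl : ∀ t, (l t).1.1 * g.1 = g.1 * diagonal fun i => (t ^ y i).1) :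
    ∃ (z : D.grp K) (m : Fin D.r → ℤ), (∀ t, z * l t * z⁻¹ = co GG_ok m t) ∧ (m = 0 → y = 0) := by
  obtain ⟨M, hM, hy⟩ : ∃ M : ℕ, (M : K) ≠ 0 ∧ ∀ i, 2 * |y i| < M := by
    have h1 : ∀ i, (y i).natAbs ≤ ∑ j, (y j).natAbs := fun i =>
      Finset.single_le_sum (f := fun j => (y j).natAbs) (fun _ _ => Nat.zero_le _)
        (Finset.mem_univ i)
    generalize ∑ j, (y j).natAbs = B at h1
    by_cases h : ((2 * B + 1 : ℕ) : K) = 0
    · exact ⟨2 * B + 1 + 1, by rw [Nat.cast_succ, h, zero_add]; exact one_ne_zero, fun i => by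
        have := h1 i
        rw [← Int.natCast_natAbs]
        omega⟩
    · exact ⟨_, h, fun i => by
        have := h1 i
        rw [← Int.natCast_natAbs]
        omega⟩
  have : NeZero (M : K) := ⟨hM⟩
  have : NeZero M := .of_neZero_natCast K
  obtain ⟨ζ, hζ⟩ := HasEnoughRootsOfUnity.exists_primitiveRoot K M
  obtain ⟨a, rfl⟩ := hζ.isUnit (NeZero.ne M)
  rw [IsPrimitiveRoot.coe_units_iff] at hζ
  have h1 : ∀ e : ℤ, |e| < M → a ^ e = 1 → e = 0 := fun e h c =>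
    Int.eq_zero_of_abs_lt_dvd ((hζ.zpow_eq_one_iff_dvd e).1 c) h
  let φ : Kˣ →* D.grp K := MonoidHom.mk' l fun s t => Subtype.ext (Units.ext (by
    rw [val_mul, ← cm_eq hl, ← cm_eq hl, ← cm_eq hl, cm_mul]))
  obtain ⟨z₀, h2⟩ := bor hl hD a
  obtain ⟨u, hu, t, ht, e⟩ := GG_ok.mem_Bo.1 h2
  obtain ⟨v, -, e'⟩ := conj_T GG_ok (R_ok D) hM ht (GG_ok.nm_T_X _ _ (inv_mem ht) _ hu) (by
    rw [show t * (t⁻¹ * u * t⁻¹⁻¹) = u * t by group, ← e, conj_pow, show l a = φ a from rfl,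
      ← map_pow, hζ.pow_eq_one, map_one, mul_one, mul_inv_cancel])
  obtain ⟨z, hz⟩ : ∃ z : D.grp K, z * l a * z⁻¹ = t := ⟨v⁻¹ * z₀, by
    rw [← e', show t * (t⁻¹ * u * t⁻¹⁻¹) = u * t by group, ← e]
    group⟩
  obtain ⟨d, hd⟩ := GG_mat.diag_T ht
  have h3 : ∀ s, (z * l s * z⁻¹).1.1 * (z.1 * g).1 =
      (z.1 * g).1 * diagonal fun i => (s ^ y i).1 := fun s => by
    rw [Units.val_mul, mul_assoc z.1.1, ← hl, ← mul_assoc, ← mul_assoc, ← val_mul, ← val_mul,
      inv_mul_cancel_right]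
  generalize z.1 * g = g' at h3
  have h4 : ∀ i j, g'.1 i j ≠ 0 → d i = (a ^ y j).1 := fun i j h => by
    have := congrFun₂ (h3 a) i j
    rw [hz, show t.1.1 = _ from hd, diagonal_mul, mul_diagonal, mul_comm] at this
    exact mul_left_cancel₀ h this
  have h5 : ∀ i, ∃ j, g'.1 i j ≠ 0 := fun i => by
    by_contra! c
    have := congrFun₂ g'.mul_inv i i
    simp [mul_apply, c] at this
  choose f hf using h5
  have h6 : ∀ s, (z * l s * z⁻¹).1.1 = diagonal fun i => (s ^ y (f i)).1 := fun s => by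
    refine (Units.mul_left_inj g').1 ((h3 s).trans (Matrix.ext fun i j => ?_))
    rw [diagonal_mul, mul_diagonal, mul_comm]
    by_cases h : g'.1 i j = 0
    · rw [h, mul_zero, mul_zero]
    · have h7 := hy j
      have h8 := hy (f i)
      rw [sub_eq_zero.1 (h1 (y j - y (f i)) ((abs_sub _ _).trans_lt (by omega)) (by
        rw [zpow_sub, Units.ext ((h4 i j h).symm.trans (h4 i _ (hf i))), mul_inv_cancel]))]
  obtain ⟨c, hc⟩ := hD.coord
  have h7 : ∀ s, z * l s * z⁻¹ = co GG_ok (fun j => ∑ i, y (f i) * c j i) s := fun s => by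
    obtain ⟨s', e⟩ := GG_ok.exists_hT (mem_T_of_diag (h6 s))
    have h8 := congrFun (diagonal_injective ((hT_val s').symm.trans (e ▸ h6 s)))
    rw [← e, co_eq]
    refine congrArg _ (funext fun j => ?_)
    rw [← hc s' j, ← prod_zpow]
    exact Finset.prod_congr rfl fun i _ => by rw [Units.ext (h8 i), _root_.zpow_mul]
  refine ⟨z, _, h7, fun h => funext fun j => h1 _ (by have := hy j; omega) (Units.ext ?_)⟩
  have h8 := h7 a
  rw [h, co_eq, show (fun i => a ^ (0 : Fin D.r → ℤ) i) = 1 from funext fun _ => zpow_zero _,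
    map_one, mul_inv_eq_one, mul_eq_left] at h8
  have h9 := hl a
  rw [h8] at h9
  have := congrFun₂ ((Units.mul_right_inj g).1 (h9.symm.trans ((one_mul _).trans (mul_one _).symm))) j j
  rwa [diagonal_apply_eq, one_apply_eq] at this

variable (D K) in
/-- the polynomial curves -/
def Sp : Subgroup (Kˣ → D.grp K) where
  carrier := {f | ∃ Q : D.Mat (Polynomial K), ∀ t, (f t).1.1 = Q.map (Polynomial.evalRingHom t.1)}
  one_mem' := ⟨1, fun t => (Matrix.map_one _ (map_zero _) (map_one _)).symm⟩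
  mul_mem' := fun ⟨Q, h⟩ ⟨Q', h'⟩ => ⟨Q * Q', fun t => by rw [Matrix.map_mul, ← h, ← h']; rfl⟩
  inv_mem' := fun {f} ⟨Q, h⟩ => ⟨Q.adjugate, fun t => Units.inv_eq_of_mul_eq_one_right (by
    rw [← RingHom.mapMatrix_apply, RingHom.map_adjugate, RingHom.mapMatrix_apply, ← h, mul_adjugate,
      det_grp, one_smul])⟩

theorem sp_const (g : D.grp K) : (fun _ => g) ∈ Sp K D :=
  ⟨g.1.1.map Polynomial.C, fun t => Matrix.ext fun _ _ => Polynomial.eval_C.symm⟩

theorem sp_x {γ : D.R.Q} (hγ : γ ∈ D.R.Φ) {e : ℤ} (he : 0 ≤ e) (a : K) :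
    (fun t : Kˣ => (GG D K).x γ ((t ^ e : Kˣ) * a)) ∈ Sp K D := by
  lift e to ℕ using he
  refine ⟨xm (D.EE γ) (Polynomial.X ^ e * Polynomial.C a), fun t => (GG_mat.x_eq γ hγ _).trans
    (Eq.trans ?_ (xm_map (Polynomial.evalRingHom t.1) _ _).symm)⟩
  exact congrArg _ (by rw [map_mul, map_pow]; simp)

theorem not_sp [Infinite K] {γ : D.R.Q} (hγ : γ ∈ D.R.Φ) {e : ℤ} (he : e < 0) :
    (fun t : Kˣ => (GG D K).x γ ((t ^ e : Kˣ) * 1)) ∉ Sp K D := by
  rintro ⟨Q, h⟩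
  obtain ⟨a, b, hab⟩ := (rf D).exists_entry hγ K
  have h1 := (rf D).deg γ hγ a b fun e => hab (by rw [e, Int.cast_zero])
  have h2 : ∀ m : ℕ, D.wt a = D.wt b + m • D.R.pr γ → m = 1 := fun m c => by
    have h3 := (R_ok D).pr_inj ((RS.pr_nsmul m γ).trans (add_left_cancel (c.symm.trans h1)))
    obtain ⟨i, hi⟩ := Function.ne_iff.1 ((R_ok D).sign γ hγ).1
    have h4 : (m : ℤ) * γ i = 1 * γ i := by simpa using congrFun h3 i
    exact_mod_cast mul_right_cancel₀ hi h4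
  have h3 : a ≠ b := fun c => absurd (h2 0 (by rw [c, zero_smul, add_zero])) zero_ne_one
  obtain ⟨m, rfl⟩ := Int.exists_eq_neg_ofNat he.le
  have h4 := pol_zero (f := Polynomial.X ^ m * Q a b - Polynomial.C (D.EE γ 1 a b : K)) fun t => by
    obtain ⟨Z, e1, -, e2⟩ := (rf D).split hγ (((t ^ (-(m : ℤ)) : Kˣ) : K) * 1)
    have e3 := congrFun₂ e1 a b
    rw [← GG_mat.x_eq γ hγ, show D.nat K _ = _ from h t, Matrix.sub_apply, one_apply_ne h3,
      Matrix.add_apply, show Z a b = 0 from by_contra fun c => by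
        obtain ⟨j, e4, e5⟩ := e2 a b c
        have := h2 j e5
        omega] at e3
    simp at e3
    simp [e3]
  have := congrArg (Polynomial.eval 0) h4
  simp [show m ≠ 0 by omega] at this
  exact hab this

/-- the conjugates by a family of elements -/
def cf (l : Kˣ → D.grp K) : D.grp K →* (Kˣ → D.grp K) :=
  Pi.monoidHom fun t => (MulAut.conj (l t)).toMonoidHom

theorem sp_tw {k : Type} [Field k] [Algebra k K] (T : Tw k (D.grp K)) {l : Kˣ → D.grp K}
    (h : ∀ σ t, T.a σ (l t) = l (Units.map (σ : K →* K) t)) (σ : K ≃ₐ[k] K) {p : D.grp K}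
    (hp : cf l p ∈ Sp K D) : cf l (T.a σ p) ∈ Sp K D := by
  obtain ⟨Q, hQ⟩ := hp
  choose q hq using T.pol σ
  refine ⟨of fun i j => MvPolynomial.aeval (fun e => (Q e.1 e.2).map (σ : K →+* K)) (q i j),
    fun t => Matrix.ext fun i j => ?_⟩
  obtain ⟨s, rfl⟩ : ∃ s, Units.map (σ : K →* K) s = t :=
    ⟨Units.map (σ.symm : K →* K) t, Units.ext (σ.apply_symm_apply _)⟩
  have h1 : cf l (T.a σ p) (Units.map (σ : K →* K) s) = T.a σ (cf l p s) := by
    show l _ * _ * (l _)⁻¹ = T.a σ (l s * p * (l s)⁻¹)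
    rw [← h, map_mul, map_mul, map_inv]
  rw [h1, hq, hQ, map_apply, of_apply, MvPolynomial.map_aeval]
  exact MvPolynomial.eval₂Hom_congr (RingHom.ext fun c => Polynomial.eval_C.symm) (funext fun e =>
    (Polynomial.eval_map_apply (f := (σ : K →+* K)) (p := Q e.1 e.2) s.1).symm) rfl

/-- **Isotropic forms have a proper stable parabolic subgroup.** -/
theorem par_of_iso : AllI fun _ _ _ _ _ _ T => ¬T.Ani → ∃ J, J ≠ Set.univ ∧ FixP T J := by
  intro k K _ _ _ _ _ D hD T h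
  haveI := IsSepClosure.sep_closed k (K := K)
  haveI := Infinite.of_injective _ (algebraMap k K).injective
  simp only [Tw.Ani, not_forall] at h
  obtain ⟨g, y, l, hl, hσ, hy⟩ := h
  obtain ⟨z, m, hz, hm⟩ := cochar hD hl
  have hR := R_ok D
  have hΓ : (GG D K).Ok := GG_ok
  obtain ⟨w, hw, h1⟩ := exists_w hR m
  obtain ⟨n, -, hn⟩ := exists_rep' (Γ := GG D K) hw
  let H := ((Sp K D).comap (cf l)).comap (MulAut.conj (z⁻¹ * n)).toMonoidHom
  have h2 : ∀ p, p ∈ H ↔ (fun t => co hΓ m t * (n * p * n⁻¹) * (co hΓ m t)⁻¹) ∈ Sp K D := fun p => by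
    have e : cf l (z⁻¹ * n * p * (z⁻¹ * n)⁻¹) = (fun _ => z)⁻¹ *
        ((fun t => co hΓ m t * (n * p * n⁻¹) * (co hΓ m t)⁻¹) * fun _ => z) := funext fun t => by
      show l t * _ * (l t)⁻¹ = z⁻¹ * (co hΓ m t * _ * (co hΓ m t)⁻¹ * z)
      rw [← hz]
      group
    show cf l (z⁻¹ * n * p * (z⁻¹ * n)⁻¹) ∈ Sp K D ↔ _
    rw [e, mul_mem_cancel_left (inv_mem (sp_const z)), mul_mem_cancel_right (sp_const z)]
  have h3 : (GG D K).Bo ≤ H := sup_le (X_le fun γ h0 hγ a => by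
    obtain ⟨c, hc⟩ := hΓ.rep_conj hR hn hγ
    rw [h2, (hc a).1]
    simp only [co_x hΓ (hR.map_mem hw hγ)]
    exact sp_x (hR.map_mem hw hγ) (h1 γ h0) _) fun t ht => by
      have h4 := hΓ.nm_N_T hR _ hn.mem_N _ ht
      rw [h2]
      simp only [hΓ.T_comm (co_mem hΓ _) h4, mul_inv_cancel_right]
      exact sp_const _
  have h4 := over_Bo hΓ hR h3
  generalize {j | (GG D K).n j ∈ H} = J at h4
  refine ⟨J, fun e => ?_, z⁻¹ * n, fun σ p hp => ?_⟩
  · obtain ⟨γ, hγ, h5⟩ := exists_neg hR (mt hm hy)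
    rw [e, PJ_univ hΓ hR] at h4
    have h6 := (h2 (n⁻¹ * (GG D K).x γ 1 * n)).1 (h4 ▸ Subgroup.mem_top _)
    rw [show n * (n⁻¹ * (GG D K).x γ 1 * n) * n⁻¹ = (GG D K).x γ 1 by group] at h6
    simp only [co_x hΓ hγ] at h6
    exact not_sp hγ h5 h6
  · rw [← h4] at hp ⊢
    have h5 := sp_tw T hσ σ hp
    show cf l (_ * (_ * _ * _) * _) ∈ Sp K D
    rwa [show ∀ a b : D.grp K, a * (a⁻¹ * b * a) * a⁻¹ = b from fun a b => by group]

theorem parx (nfx : NFX) : PARX := fun k K _ _ _ _ _ D hD T =>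
  ⟨par_of_iso k K D hD T, fun ⟨J, h, h'⟩ => iso_of_fix nfx k K D hD T J h h'⟩

end Vale.Agent.P011UV
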