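import Vale.Agent.P011UP.Std

/-!
Overgroups of the Borel subgroup; elements of finite order in the Borel subgroup; dominant
chambers.
-/

set_option autoImplicit false
set_option linter.all false

namespace Vale.Agent.P011UV

open Matrix Subgroup Vale.Agent.P183CH Vale.Agent.P183CH.RG Vale.Agent.P183A Vale.Agent.P011U
  Vale.Agent.P011UP

variable {R : RS} {K G : Type} [Field K] [Group G] {Γ : RG R K G}

theorem mem_eq {S : Subgroup G} {a b : G} (h : a ∈ S) (e : a = b) : b ∈ S := e ▸ h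

/-- every cocharacter is dominant for some chamber -/
theorem exists_w (hR : R.Ok) (m : Fin R.r → ℤ) :
    ∃ w ∈ R.W, ∀ γ : R.Q, 0 ≤ γ → 0 ≤ pw m (w γ) := by
  have := hR.finite_W
  obtain ⟨ρ, h1⟩ : ∃ ρ : R.Q, ∀ i, 0 < R.pr ρ i := ⟨R.A.det • (1 ᵥ* R.A.adjugate), fun i => by
    rw [RS.pr_smul, RS.pr, vecMul_vecMul, adjugate_mul, vecMul_smul, vecMul_one]
    simpa using hR.det⟩
  obtain ⟨w, hw⟩ := Finite.exists_max fun w : R.W => pw m (w.1 ρ)
  refine ⟨w.1, w.2, fun γ hγ => ?_⟩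
  have h2 : ∀ i, 0 ≤ pw m (w.1 (R.α i)) := fun i => by
    have := hw (w * ⟨_, RS.sE_mem_W i⟩)
    rw [Subgroup.coe_mul, RS.mul_app, hR.sE_eq, map_sub, LinearEquiv.map_smul w.1, sub_eq_add_neg,
      pw_add, pw_neg, pw_smul] at this
    exact nonneg_of_mul_nonneg_right (by omega) (h1 i)
  have h3 : ∀ s : Finset (Fin R.r), 0 ≤ pw m (∑ i ∈ s, γ i • w.1 (R.α i)) := fun s => by
    induction s using Finset.induction_on with
    | empty => simpa using (pw_smul (m := m) 0 0).ge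
    | insert i s hi ih =>
      rw [Finset.sum_insert hi, pw_add, pw_smul]
      exact add_nonneg (mul_nonneg (hγ i) (h2 i)) ih
  rw [RS.map_eq]
  exact h3 _

theorem exists_neg (hR : R.Ok) {m : Fin R.r → ℤ} (hm : m ≠ 0) : ∃ γ ∈ R.Φ, pw m γ < 0 := by
  by_contra! c
  refine hm (mul_inj hR (funext fun i => ?_))
  have h1 := c _ (hR.simple i)
  have h2 := c _ (hR.neg_mem (hR.simple i))
  rw [pw_neg] at h2
  rw [← pw_α, mulVec_zero, Pi.zero_apply]
  omega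

variable (hΓ : Γ.Ok) (hR : R.Ok)
include hΓ hR

theorem PJ_univ : PJ Γ Set.univ = ⊤ := by rw [PJ, hΓ.GJ_univ hR, top_sup_eq]

theorem n_of_rep {H : Subgroup G} (h : Γ.Bo ≤ H) {n : G} {w : R.Aut} (hn : Γ.Rep n w) (hH : n ∈ H)
    {j : Fin R.r} (hj : w (R.α j) ≤ 0) : Γ.n j ∈ H := by
  have h1 := hR.simple j
  have hU : ∀ a, Γ.x (R.α j) a ∈ Γ.U := x_mem h1 (RS.α_nonneg j)
  have h2 : Γ.Rep (n * (Γ.n j)⁻¹) (w * R.sE j) := by
    simpa only [hR.sE_inv] using hn.mul (rep_n j).inv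
  have h3 : n * (Γ.n j)⁻¹ * Γ.x (R.α j) 1 * (n * (Γ.n j)⁻¹)⁻¹ ∈ H :=
    h (U_le_Bo (hΓ.conj_U hR h2 (x_mem (S := {γ | γ ∈ R.Φ ∧ 0 ≤ γ ∧ 0 ≤ (w * R.sE j) γ}) h1
      ⟨h1, RS.α_nonneg j, by rw [hR.mul_sE_α]; exact neg_nonneg.2 hj⟩ 1)))
  obtain ⟨c, hc⟩ := hΓ.rep_conj hR (rep_n j) h1
  have h4 := (hc (-(c⁻¹ : Kˣ))).1
  rw [hR.sE_α, show (c : K) * -(c⁻¹ : Kˣ) = -1 by simp] at h4
  have h5 := mul_mem (mul_mem hH (h (U_le_Bo (hU (-(c⁻¹ : Kˣ)))))) (inv_mem hH)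
  have h6 : Γ.n j = Γ.x (R.α j) 1 * (Γ.n j * Γ.x (R.α j) (-(c⁻¹ : Kˣ)) * (Γ.n j)⁻¹) *
      Γ.x (R.α j) 1 := by rw [h4]; rfl
  generalize Γ.n j = s at h3 h6 ⊢
  have h7 : n * s * n⁻¹ ∈ H := mem_eq (mul_mem (mul_mem h3 h5) h3) (by
    calc _ = n * s⁻¹ * (Γ.x (R.α j) 1 * (s * Γ.x (R.α j) (-(c⁻¹ : Kˣ)) * s⁻¹) * Γ.x (R.α j) 1) *
          (n * s⁻¹)⁻¹ := by group
      _ = _ := by rw [← h6]; group)
  exact mem_eq (mul_mem (mul_mem (inv_mem hH) h7) hH) (by group)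

/-- the overgroups of the Borel subgroup are the standard parabolic subgroups -/
theorem over_Bo {H : Subgroup G} (h : Γ.Bo ≤ H) : H = PJ Γ {j | Γ.n j ∈ H} := by
  refine le_antisymm (fun g hg => ?_) (sup_le (fun g hg => ?_) (U_le_Bo.trans h))
  · obtain ⟨u, hu, n, w, hn, u', hu', rfl⟩ := hΓ.bruhat hR g
    have h1 := X_le_U (RS.cl_Inv _).1 hu'
    have h2 : n ∈ H := mem_eq (mul_mem (mul_mem (inv_mem (h (U_le_Bo hu))) hg)
      (inv_mem (h (U_le_Bo h1)))) (by group)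
    have h3 : ∀ (l : ℕ) (n : G) (w : R.Aut), Γ.Rep n w → n ∈ H → R.len w = l →
        w ∈ R.WJ {j | Γ.n j ∈ H} := fun l => by
      induction l with
      | zero => exact fun n w hn _ e => hR.len_eq_zero hn.mem_W e ▸ one_mem _
      | succ l ih =>
        intro n w hn hH e
        obtain ⟨j, -, hj⟩ := hR.exists_neg hn.mem_W fun e' => by
          rw [e', hR.len_one] at e
          omega
        have h4 := n_of_rep hΓ hR h hn hH hj
        have h5 := hR.len_mul_neg hn.mem_W hj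
        rw [← hR.mul_sE_sE w j]
        exact mul_mem (ih _ _ (hn.mul (rep_n j)) (mul_mem hH h4) (by omega)) (RS.sE_mem h4)
    exact mul_mem (mul_mem (mem_sup_right hu) (mem_sup_left
      (hΓ.NJ_le hR (hΓ.rep_NJ hR hn (h3 _ n w hn h2 rfl))))) (mem_sup_right h1)
  · obtain ⟨u, hu, n, hn, u', hu', rfl⟩ := hΓ.bruhat0 hR hg
    refine mul_mem (mul_mem (h (U_le_Bo (UJ_le _ hu))) ?_) (h (U_le_Bo (UJ_le _ hu')))
    refine (sup_le (T_le_Bo.trans h) ((closure_le _).2 ?_) : Γ.NJ _ ≤ H) hn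
    rintro _ ⟨j, hj, rfl⟩
    exact hj

/-- an element of the Borel subgroup of finite order prime to the characteristic is conjugate to an
element of the torus -/
theorem conj_T {M : ℕ} (hM : (M : K) ≠ 0) {t : G} (ht : t ∈ Γ.T) {u : G} (hu : u ∈ Γ.U)
    (e : (t * u) ^ M = 1) : ∃ v ∈ Γ.U, v⁻¹ * (t * u) * v = t := by
  have key : ∀ (l : ℕ) (S : Set R.Q), S ⊆ R.Pos → (∀ γ ∈ S, ∀ δ ∈ R.Pos, R.ht γ < R.ht δ → δ ∈ S) →
      S.ncard = l → ∀ u ∈ Γ.X S, (t * u) ^ M = 1 → ∃ v ∈ Γ.U, v⁻¹ * (t * u) * v = t := by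
    intro l
    induction l with
    | zero =>
      intro S h1 _ h3 u hu _
      rw [Set.ncard_eq_zero (RS.Pos_finite.subset h1)] at h3
      obtain rfl : u = 1 := mem_bot.1 ((X_le fun γ a => by simp [h3] at a : _ ≤ ⊥) hu)
      exact ⟨1, one_mem _, by simp⟩
    | succ l ih =>
      intro S h1 h2 h3 u hu e
      have hf := RS.Pos_finite.subset h1
      obtain ⟨γ, hγ, hm⟩ := Set.exists_min_image S R.ht hf (Set.nonempty_of_ncard_ne_zero (by omega))
      have h4 : R.Br R.Pos S (S \ {γ}) := fun δ hδ ε hε a b ha hb h => by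
        have h5 := hR.ht_pos hδ
        have h6 := hR.ht_pos (h1 hε)
        have h7 := hm ε hε
        have h8 : R.ht ε < R.ht (a • δ + b • ε) := by
          rw [RS.ht_add, RS.ht_nsmul, RS.ht_nsmul]
          have : (1 : ℤ) ≤ a := by exact_mod_cast ha
          have : (1 : ℤ) ≤ b := by exact_mod_cast hb
          nlinarith
        exact ⟨h2 ε hε _ ⟨h, RS.comb_nonneg hδ.2 (h1 hε).2 a b⟩ h8, fun c => by
          rw [show a • δ + b • ε = γ from c] at h8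
          omega⟩
      have h1' : S \ {γ} ⊆ R.Pos := Set.diff_subset.trans h1
      have c1 : R.Cl S := ⟨h1, fun δ hδ ε hε a b ha hb h => (h4 δ (h1 hδ) ε hε a b ha hb h).1⟩
      have c2 : R.Cl (S \ {γ}) := ⟨h1', fun δ hδ ε hε => h4 δ (h1' hδ) ε hε.1⟩
      have n1 : Nm Γ.U (Γ.X (S \ {γ})) :=
        U_eq (Γ := Γ) ▸ hΓ.nm_X hR le_rfl h1' fun δ hδ ε hε => h4 δ hδ ε hε.1
      have ih' := ih _ h1' (fun δ hδ ε hε h => ⟨h2 δ hδ.1 ε hε h, fun c => by
        have := hm δ hδ.1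
        rw [show ε = γ from c] at h
        omega⟩) (by rw [Set.ncard_diff_singleton_of_mem hγ]; omega)
      have h0 := (h1 hγ).1
      have hU : ∀ a, Γ.x γ a ∈ Γ.U := x_mem h0 (h1 hγ).2
      obtain ⟨x, hx, w, hw, rfl⟩ := hΓ.X_split hR (S := {γ}) (S' := S \ {γ}) c1
        (fun δ hδ => (em (δ = γ)).imp id fun c => ⟨hδ, c⟩) hu
      obtain ⟨c, rfl⟩ := hΓ.mem_X_single h0 Set.inter_subset_right hx
      replace hw := X_mono (S' := S \ {γ}) (fun _ a _ => a.2) hw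
      have h9 := hΓ.tx ht h0
      generalize hΓ.chi γ t = χ at h9
      by_cases hχ : χ = 1
      · have h5 : ∀ a, Γ.x γ a * t = t * Γ.x γ a := fun a => by
          rw [mul_inv_eq_iff_eq_mul.1 (h9 a), hχ, Units.val_one, one_mul]
        have h6 : ∀ j : ℕ, ∃ z ∈ Γ.X (S \ {γ}), (t * (Γ.x γ c * w)) ^ j = Γ.x γ (j * c) * z * t ^ j := by
          intro j
          induction j with
          | zero => exact ⟨1, one_mem _, by simp [hΓ.x_zero h0]⟩
          | succ j ih =>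
            obtain ⟨z, hz, e'⟩ := ih
            refine ⟨_, mul_mem (n1 _ (inv_mem (hU (j * c))) _ (hΓ.nm_T_X _ _ ht _ hw))
              (hΓ.nm_T_X _ _ ht _ hz), ?_⟩
            rw [pow_succ', e', Nat.cast_succ, add_mul, one_mul, add_comm, hΓ.add γ h0, pow_succ']
            calc _ = t * Γ.x γ c * w * t⁻¹ * (t * Γ.x γ (j * c)) * z * t ^ j := by group
              _ = _ := by rw [← h5, ← h5]; group
        obtain ⟨z, hz, e'⟩ := h6 M
        have h7 := (hΓ.tri _ (mul_mem (hU _) (X_le_U h1' hz)) _ (pow_mem ht M)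
          (by rw [← e', e]; exact one_mem _)).1
        have h8 : c = 0 := by_contra fun h => ((hΓ.x_mem_iff hR c2 (h1 hγ) (mul_ne_zero hM h)).1
          (eq_inv_of_mul_eq_one_left h7 ▸ inv_mem hz)).2 rfl
        rw [h8, hΓ.x_zero h0, one_mul] at e ⊢
        exact ih' w hw e
      · have h5 : (1 - χ : K) ≠ 0 := fun h => hχ (Units.ext (sub_eq_zero.1 h).symm)
        have h6 : Γ.x γ c * Γ.x γ (χ * (c / (1 - χ))) = Γ.x γ (c / (1 - χ)) := by
          rw [← hΓ.add γ h0]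
          congr 1
          field_simp
          ring
        have h7 := h9 (c / (1 - χ))
        have h8 := hU (χ * (c / (1 - χ)))
        generalize Γ.x γ (χ * (c / (1 - χ))) = v at h6 h7 h8
        have h10 : v⁻¹ * (t * (Γ.x γ c * w)) * v = t * (v⁻¹ * w * v⁻¹⁻¹) := by
          rw [← h6] at h7
          calc _ = v⁻¹ * (t * (Γ.x γ c * v) * t⁻¹) * t * (v⁻¹ * w * v) := by group
            _ = _ := by rw [h7]; group
        obtain ⟨v', hv', e'⟩ := ih' _ (n1 _ (inv_mem h8) _ hw) (by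
          rw [← h10, show v⁻¹ * (t * (Γ.x γ c * w)) * v = v⁻¹ * (t * (Γ.x γ c * w)) * v⁻¹⁻¹ by group,
            conj_pow, e]
          group)
        exact ⟨_, mul_mem h8 hv', Eq.trans (by rw [← h10]; group) e'⟩
  exact key _ _ le_rfl (fun _ _ _ h _ => h) rfl u (U_eq (Γ := Γ) ▸ hu) e

end Vale.Agent.P011UV
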